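import Mathlib.MeasureTheory.Measure.Hausdorff
import Mathlib.Topology.Connected.Clopen
import Mathlib.Topology.Separation.Regular

/-!
# P128: components of a closed set

A bounded component of a closed set lies in a compact relatively clopen piece (Šura-Bura). If every
component is unbounded and the length in balls grows at most like `A R`, there are at most `A`
components, each relatively clopen.
-/

open Set Metric MeasureTheory Topology
open scoped ENNReal NNReal

namespace Vale.Agent.P128.Topo

variable {X : Type*} [MetricSpace X] [ProperSpace X] {K : Set X} {x : X}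

/-- A bounded component lies in a compact piece that is clopen in `K`. -/
theorem exists_compact_clopen_piece (hK : IsClosed K) (hx : x ∈ K)
    (hb : Bornology.IsBounded (connectedComponentIn K x)) :
    ∃ C : Set X, IsCompact C ∧ connectedComponentIn K x ⊆ C ∧ C ⊆ K ∧ IsClosed (K \ C) := by
  obtain ⟨R, hR⟩ := hb.subset_ball x
  have hR0 : 0 < R := pos_of_mem_ball (hR (mem_connectedComponentIn hx))
  set A : Set X := K ∩ closedBall x R
  have hA : IsCompact A := (isCompact_closedBall x R).inter_left hK
  have : CompactSpace A := isCompact_iff_compactSpace.1 hA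
  set a : A := ⟨x, hx, mem_closedBall_self hR0.le⟩
  set S₀ : Set A := Subtype.val ⁻¹' (ball x R)ᶜ with hS
  have hSc : IsCompact S₀ :=
    ((isOpen_ball.isClosed_compl).preimage continuous_subtype_val).isCompact
  have hdis : S₀ ∩ ⋂ s : { s : Set A // IsClopen s ∧ a ∈ s }, (s : Set A) = ∅ := by
    rw [← connectedComponent_eq_iInter_isClopen, eq_empty_iff_forall_notMem]
    rintro z ⟨hz, hz'⟩
    have hsub : Subtype.val '' connectedComponent a ⊆ connectedComponentIn K x :=
      ((isPreconnected_connectedComponent).image _ continuous_subtype_val.continuousOn)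
        |>.subset_connectedComponentIn ⟨a, mem_connectedComponent, rfl⟩
          (by rintro _ ⟨w, -, rfl⟩; exact w.2.1)
    exact hz (hR (hsub ⟨z, hz', rfl⟩))
  obtain ⟨t, ht⟩ := hSc.elim_finite_subfamily_closed
    (fun s : { s : Set A // IsClopen s ∧ a ∈ s } => (s : Set A)) (fun s => s.2.1.1) hdis
  set Z : Set A := ⋂ s ∈ t, (s : Set A) with hZ
  have hZc : IsClopen Z := isClopen_biInter_finset fun s _ => s.2.1
  refine ⟨Subtype.val '' Z, (hZc.1.isCompact).image continuous_subtype_val, ?_,
    by rintro _ ⟨w, -, rfl⟩; exact w.2.1, ?_⟩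
  · intro y hy
    have hyA : ∀ w ∈ connectedComponentIn K x, w ∈ A := fun w hw =>
      ⟨connectedComponentIn_subset K x hw, ball_subset_closedBall (hR hw)⟩
    have hpre : IsPreconnected ((↑) ⁻¹' connectedComponentIn K x : Set A) := by
      refine IsInducing.subtypeVal.isPreconnected_image.1 ?_
      rw [Subtype.image_preimage_coe, inter_eq_right.2 hyA]
      exact isPreconnected_connectedComponentIn
    exact ⟨⟨y, hyA y hy⟩,
      hpre.subset_isClopen hZc ⟨a, mem_connectedComponentIn hx,
        mem_iInter₂.2 fun s _ => s.2.2⟩ hy, rfl⟩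
  · have e : K \ Subtype.val '' Z = Subtype.val '' Zᶜ ∪ K ∩ (ball x R)ᶜ := by
      ext y
      constructor
      · rintro ⟨hy, hyZ⟩
        by_cases h : y ∈ ball x R
        · exact Or.inl ⟨⟨y, hy, ball_subset_closedBall h⟩, fun hz => hyZ ⟨_, hz, rfl⟩, rfl⟩
        · exact Or.inr ⟨hy, h⟩
      · rintro (⟨w, hw, rfl⟩ | ⟨hy, hyb⟩)
        · refine ⟨w.2.1, ?_⟩
          rintro ⟨w', hw', e⟩
          exact hw (Subtype.ext e ▸ hw')
        · refine ⟨hy, ?_⟩
          rintro ⟨w', hw', rfl⟩
          exact (eq_empty_iff_forall_notMem.1 ht w') ⟨hyb, hw'⟩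
    rw [e]
    exact ((hZc.compl.1.isCompact).image continuous_subtype_val).isClosed.union
      (hK.inter isOpen_ball.isClosed_compl)

omit [ProperSpace X] in
/-- A compact clopen piece has positive distance from the rest. -/
theorem piece_separated {C : Set X} (hC : IsCompact C) (hKC : IsClosed (K \ C)) :
    ∃ δ > 0, ∀ y ∈ C, ∀ z ∈ K \ C, δ ≤ dist y z := by
  obtain ⟨δ, hδ, h⟩ := (disjoint_sdiff_self_right (y := K) (x := C)).exists_thickenings hC hKC
  refine ⟨δ, hδ, fun y hy z hz => ?_⟩
  by_contra! hlt
  exact (disjoint_left.1 h) (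
    mem_thickening_iff.2 ⟨y, hy, by simpa [dist_comm] using hlt⟩) (self_subset_thickening hδ _ hz)

omit [ProperSpace X] in
/-- A connected set joining two spheres about `a` is at least as long as their distance. -/
theorem length_le_of_isPreconnected [MeasurableSpace X] [BorelSpace X] {S : Set X}
    (hS : IsPreconnected S) {a p q : X} (hp : p ∈ S) (hq : q ∈ S) {R : ℝ} (hR : dist q a ≥ R) :
    ENNReal.ofReal (R - dist p a) ≤ μH[1] (S ∩ closedBall a R) := by
  have hl : LipschitzWith 1 fun z : X => dist z a := LipschitzWith.dist_left a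
  have hsub : Icc (dist p a) R ⊆ (fun z => dist z a) '' (S ∩ closedBall a R) := fun r hr => by
    obtain ⟨z, hz, e⟩ := hS.intermediate_value hp hq hl.continuous.continuousOn
      ⟨hr.1, hr.2.trans hR⟩
    exact ⟨z, ⟨hz, (show dist z a = r from e).trans_le hr.2⟩, e⟩
  calc ENNReal.ofReal (R - dist p a) = volume (Icc (dist p a) R) := Real.volume_Icc.symm
    _ = μH[1] (Icc (dist p a) R) := by rw [hausdorffMeasure_real]
    _ ≤ μH[1] ((fun z => dist z a) '' (S ∩ closedBall a R)) := measure_mono hsub
    _ ≤ _ := by simpa using hl.hausdorffMeasure_image_le zero_le_one (S ∩ closedBall a R)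

omit [ProperSpace X] in
/-- Components of a closed set are closed. -/
theorem isClosed_component (hK : IsClosed K) (x : X) : IsClosed (connectedComponentIn K x) := by
  by_cases hx : x ∈ K
  · refine closure_subset_iff_isClosed.1 ?_
    exact (isPreconnected_connectedComponentIn.closure).subset_connectedComponentIn
      (subset_closure (mem_connectedComponentIn hx))
      (closure_minimal (connectedComponentIn_subset K x) hK)
  · rw [connectedComponentIn_eq_empty hx]; exact isClosed_empty

variable [MeasurableSpace X] [BorelSpace X]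

omit [ProperSpace X] in
/-- At most `A` unbounded components under linear growth of the length. -/
theorem card_components_le (hK : IsClosed K) {a : X} {A : ℝ} (hA : 0 ≤ A)
    (hgrow : ∀ R : ℝ, 0 < R → μH[1] (K ∩ closedBall a R) ≤ ENNReal.ofReal (A * R))
    (hunb : ∀ x ∈ K, ¬Bornology.IsBounded (connectedComponentIn K x))
    (F : Finset X) (hF : ↑F ⊆ K)
    (hdiff : (F : Set X).InjOn (connectedComponentIn K)) : (F.card : ℝ) ≤ A := by
  by_contra! h
  set R₀ : ℝ := ∑ p ∈ F, dist p a
  have hR₀ : 0 ≤ R₀ := Finset.sum_nonneg fun _ _ => dist_nonneg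
  obtain ⟨R, hR⟩ := exists_gt (F.card * R₀ / (F.card - A))
  have hR' : F.card * R₀ < R * (F.card - A) := (div_lt_iff₀ (sub_pos.2 h)).1 hR
  have hRpos : 0 < R := lt_of_le_of_lt (by have := sub_pos.2 h; positivity) hR
  have key : ∀ p ∈ F, ENNReal.ofReal (R - R₀) ≤
      μH[1] (connectedComponentIn K p ∩ closedBall a R) := by
    intro p hp
    obtain ⟨q, hq, hqR⟩ : ∃ q ∈ connectedComponentIn K p, R ≤ dist q a := by
      by_contra! hc
      exact hunb p (hF hp) (isBounded_ball.subset fun q hq => mem_ball.2 (hc q hq))
    refine le_trans (ENNReal.ofReal_le_ofReal ?_) (length_le_of_isPreconnected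
      isPreconnected_connectedComponentIn (mem_connectedComponentIn (hF hp)) hq hqR)
    linarith [Finset.single_le_sum (f := fun p => dist p a) (fun _ _ => dist_nonneg) hp]
  have hdisj : (F : Set X).PairwiseDisjoint fun p => connectedComponentIn K p ∩ closedBall a R := by
    intro p hp q hq hpq
    refine disjoint_left.2 fun z hzp hzq => hpq (hdiff hp hq ?_)
    rw [connectedComponentIn_eq hzp.1, connectedComponentIn_eq hzq.1]
  have hsum : (F.card : ℝ≥0∞) * ENNReal.ofReal (R - R₀) ≤ ENNReal.ofReal (A * R) :=
    calc (F.card : ℝ≥0∞) * ENNReal.ofReal (R - R₀)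
        = ∑ _p ∈ F, ENNReal.ofReal (R - R₀) := by rw [Finset.sum_const, nsmul_eq_mul]
      _ ≤ ∑ p ∈ F, μH[1] (connectedComponentIn K p ∩ closedBall a R) := Finset.sum_le_sum key
      _ = μH[1] (⋃ p ∈ F, connectedComponentIn K p ∩ closedBall a R) :=
          (measure_biUnion_finset hdisj fun p _ =>
            ((isClosed_component hK p).inter isClosed_closedBall).measurableSet).symm
      _ ≤ μH[1] (K ∩ closedBall a R) := measure_mono (iUnion₂_subset fun p _ =>
          inter_subset_inter_left _ (connectedComponentIn_subset K p))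
      _ ≤ _ := hgrow R hRpos
  rw [← ENNReal.ofReal_natCast, ← ENNReal.ofReal_mul (Nat.cast_nonneg _),
    ENNReal.ofReal_le_ofReal_iff (mul_nonneg hA hRpos.le)] at hsum
  nlinarith

omit [ProperSpace X] in
/-- Under the same hypotheses there are finitely many components and each is open in `K`. -/
theorem components_finite (hK : IsClosed K) {a : X} {A : ℝ} (hA : 0 ≤ A)
    (hgrow : ∀ R : ℝ, 0 < R → μH[1] (K ∩ closedBall a R) ≤ ENNReal.ofReal (A * R))
    (hunb : ∀ x ∈ K, ¬Bornology.IsBounded (connectedComponentIn K x)) :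
    ∃ F : Finset X, ↑F ⊆ K ∧ (F.card : ℝ) ≤ A ∧
      (F : Set X).InjOn (connectedComponentIn K) ∧
      (∀ x ∈ K, ∃ p ∈ F, connectedComponentIn K x = connectedComponentIn K p) ∧
      ∀ x ∈ K, IsClosed (K \ connectedComponentIn K x) := by
  classical
  have hb : ∀ s : Finset (Set X), ↑s ⊆ connectedComponentIn K '' K →
      ∃ F : Finset X, ↑F ⊆ K ∧ (F : Set X).InjOn (connectedComponentIn K) ∧
        F.image (connectedComponentIn K) = s := fun s hs => by
    exact Finset.exists_subset_injOn_image_eq_of_surjOn K s fun z hz => hs hz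
  have hfin : (connectedComponentIn K '' K).Finite := by
    by_contra hinf
    obtain ⟨s, hs, hcard⟩ := (Set.not_finite.1 hinf).exists_subset_card_eq (⌊A⌋₊ + 1)
    obtain ⟨F, hF, hinj, rfl⟩ := hb s hs
    have := card_components_le hK hA hgrow hunb F hF hinj
    rw [← Finset.card_image_of_injOn hinj, hcard, Nat.cast_succ] at this
    linarith [Nat.lt_floor_add_one A]
  obtain ⟨F, hF, hinj, e⟩ := hb hfin.toFinset (by simp)
  refine ⟨F, hF, card_components_le hK hA hgrow hunb F hF hinj, hinj, fun x hx => ?_, fun x hx => ?_⟩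
  · have : connectedComponentIn K x ∈ F.image (connectedComponentIn K) := by
      rw [e, hfin.mem_toFinset]; exact mem_image_of_mem _ hx
    obtain ⟨p, hp, h⟩ := Finset.mem_image.1 this
    exact ⟨p, hp, h.symm⟩
  · have : K \ connectedComponentIn K x =
        ⋃ p ∈ F.filter (fun p => connectedComponentIn K p ≠ connectedComponentIn K x),
          connectedComponentIn K p := by
      ext y
      simp only [mem_sdiff, mem_iUnion, Finset.mem_filter, exists_prop]
      constructor
      · rintro ⟨hy, hyx⟩
        have : connectedComponentIn K y ∈ F.image (connectedComponentIn K) := by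
          rw [e, hfin.mem_toFinset]; exact mem_image_of_mem _ hy
        obtain ⟨p, hp, h⟩ := Finset.mem_image.1 this
        exact ⟨p, ⟨hp, fun h' => hyx (by rw [← h', h]; exact mem_connectedComponentIn hy)⟩,
          h ▸ mem_connectedComponentIn hy⟩
      · rintro ⟨p, ⟨hp, hne⟩, hy⟩
        exact ⟨connectedComponentIn_subset K p hy, fun hyx =>
          hne ((connectedComponentIn_eq hy).trans (connectedComponentIn_eq hyx).symm)⟩
    rw [this]
    exact (Finset.filter _ F).finite_toSet.isClosed_biUnion fun p _ => isClosed_component hK p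

end Vale.Agent.P128.Topo
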