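import Mathlib.Combinatorics.SimpleGraph.Connectivity.Connected
import Mathlib.Order.Filter.Ultrafilter.Basic
import Vale.Agent.P128.Topo.Components

/-!
# P128: components with linear growth of length are connected by short Lipschitz paths

If `K` is closed and `μH[1] (K ∩ B̄(w,t)) ≤ A t` for all balls, two points of one component of `K`
are joined inside `K` by a Lipschitz path that spends time at most `C t` in any ball of radius `t`.
-/

open Set Metric MeasureTheory Topology Filter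
open scoped ENNReal NNReal

namespace Vale.Agent.P128.Topo

variable {X : Type*} [MetricSpace X] [ProperSpace X] {K S : Set X} {p q y : X} {A R : ℝ}

/-- Boundary bumping: a component of `S ∩ B̄(p,R)` reaches the sphere unless `S` is inside. -/
theorem exists_dist_ge_mem_component (hS : IsPreconnected S) (hSc : IsClosed S)
    (hy : y ∈ S ∩ closedBall p R) (hnot : ¬S ⊆ ball p R) :
    ∃ z ∈ connectedComponentIn (S ∩ closedBall p R) y, R ≤ dist z p := by
  by_contra! hc
  have hA : IsCompact (S ∩ closedBall p R) := (isCompact_closedBall p R).inter_left hSc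
  have : CompactSpace ↥(S ∩ closedBall p R) := isCompact_iff_compactSpace.1 hA
  set a : ↥(S ∩ closedBall p R) := ⟨y, hy⟩
  set S₀ : Set ↥(S ∩ closedBall p R) := Subtype.val ⁻¹' (ball p R)ᶜ
  have hS₀ : IsCompact S₀ :=
    ((isOpen_ball.isClosed_compl).preimage continuous_subtype_val).isCompact
  have hdis : S₀ ∩ ⋂ s : { s : Set ↥(S ∩ closedBall p R) // IsClopen s ∧ a ∈ s }, (s : Set _)
      = ∅ := by
    rw [← connectedComponent_eq_iInter_isClopen, eq_empty_iff_forall_notMem]
    rintro z ⟨hz, hz'⟩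
    exact hz (mem_ball.2 (hc z (by rw [connectedComponentIn_eq_image hy]; exact ⟨z, hz', rfl⟩)))
  obtain ⟨t, ht⟩ := hS₀.elim_finite_subfamily_closed
    (fun s : { s : Set ↥(S ∩ closedBall p R) // IsClopen s ∧ a ∈ s } => (s : Set _))
    (fun s => s.2.1.1) hdis
  set Z : Set ↥(S ∩ closedBall p R) := ⋂ s ∈ t, (s : Set _)
  have hZc : IsClopen Z := isClopen_biInter_finset fun s _ => s.2.1
  have hin : ∀ w ∈ Z, (w : X) ∈ ball p R := fun w hw => by
    by_contra h; exact (eq_empty_iff_forall_notMem.1 ht w) ⟨h, hw⟩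
  have hu : IsClosed (Subtype.val '' Z) :=
    ((hZc.1.isCompact).image continuous_subtype_val).isClosed
  have hv : IsClosed (Subtype.val '' Zᶜ ∪ S ∩ (ball p R)ᶜ) :=
    ((hZc.compl.1.isCompact).image continuous_subtype_val).isClosed.union
      (hSc.inter isOpen_ball.isClosed_compl)
  have hcov : S ⊆ Subtype.val '' Z ∪ (Subtype.val '' Zᶜ ∪ S ∩ (ball p R)ᶜ) := fun z hz => by
    by_cases h : z ∈ ball p R
    · by_cases h' : (⟨z, hz, ball_subset_closedBall h⟩ : ↥(S ∩ closedBall p R)) ∈ Z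
      · exact Or.inl ⟨_, h', rfl⟩
      · exact Or.inr (Or.inl ⟨_, h', rfl⟩)
    · exact Or.inr (Or.inr ⟨hz, h⟩)
  have hd : S ∩ (Subtype.val '' Z ∩ (Subtype.val '' Zᶜ ∪ S ∩ (ball p R)ᶜ)) = ∅ := by
    rw [eq_empty_iff_forall_notMem]
    rintro _ ⟨-, ⟨w, hw, rfl⟩, ⟨w', hw', e⟩ | ⟨-, h⟩⟩
    · exact hw' (Subtype.ext e ▸ hw)
    · exact h (hin w hw)
  rcases isPreconnected_iff_subset_of_disjoint_closed.1 hS _ _ hu hv hcov hd with h | h
  · exact hnot fun z hz => by
      obtain ⟨w, hw, rfl⟩ := h hz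
      exact hin w hw
  · have haZ : a ∈ Z := mem_iInter₂.2 fun s _ => s.2.2
    exact eq_empty_iff_forall_notMem.1 hd y ⟨hy.1, ⟨a, haZ, rfl⟩, h hy.1⟩

variable [MeasurableSpace X] [BorelSpace X]

/-- A bounded part of a component is locally connected at a scale. -/
theorem exists_nhd_subset_component (hS : IsPreconnected S) (hSc : IsClosed S) (hR : 0 < R)
    (hA : 0 ≤ A) (hgrow : ∀ t : ℝ, 0 < t → μH[1] (S ∩ closedBall p t) ≤ ENNReal.ofReal (A * t))
    (hy : y ∈ S) (hyR : dist y p < R) :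
    ∃ V : Set X, IsOpen V ∧ y ∈ V ∧
      V ∩ S ⊆ connectedComponentIn (S ∩ closedBall p (2 * R)) y := by
  classical
  by_cases hall : S ⊆ ball p (2 * R)
  · refine ⟨univ, isOpen_univ, mem_univ y, fun z hz => ?_⟩
    exact (hS.subset_connectedComponentIn hy (F := S ∩ closedBall p (2 * R))
      fun w hw => ⟨hw, ball_subset_closedBall (hall hw)⟩) hz.2
  set B := S ∩ closedBall p (2 * R) with hB
  have hBc : IsClosed B := hSc.inter isClosed_closedBall
  set 𝒟 := connectedComponentIn B '' (S ∩ closedBall p R)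
  have hmem : ∀ z ∈ S ∩ closedBall p R, z ∈ B := fun z hz =>
    ⟨hz.1, closedBall_subset_closedBall (by linarith) hz.2⟩
  have hlen : ∀ D ∈ 𝒟, MeasurableSet D ∧ D ⊆ B ∧ ENNReal.ofReal R ≤ μH[1] D := by
    rintro _ ⟨z, hz, rfl⟩
    refine ⟨(isClosed_component hBc z).measurableSet, connectedComponentIn_subset B z, ?_⟩
    obtain ⟨w, hw, hwR⟩ := exists_dist_ge_mem_component hS hSc (hmem z hz) hall
    calc ENNReal.ofReal R ≤ ENNReal.ofReal (2 * R - dist z p) :=
          ENNReal.ofReal_le_ofReal (by linarith [mem_closedBall.1 hz.2])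
      _ ≤ μH[1] (connectedComponentIn B z ∩ closedBall p (2 * R)) :=
          length_le_of_isPreconnected isPreconnected_connectedComponentIn
            (mem_connectedComponentIn (hmem z hz)) hw hwR
      _ ≤ _ := measure_mono inter_subset_left
  have hpd : 𝒟.PairwiseDisjoint id := by
    rintro _ ⟨z, hz, rfl⟩ _ ⟨z', hz', rfl⟩ hne
    refine disjoint_left.2 fun w hw hw' => hne ?_
    rw [connectedComponentIn_eq hw, connectedComponentIn_eq hw']
  have hfin : 𝒟.Finite := by
    by_contra hinf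
    obtain ⟨s, hs, hcard⟩ := (Set.not_finite.1 hinf).exists_subset_card_eq (⌊2 * A⌋₊ + 1)
    have h1 : (s.card : ℝ≥0∞) * ENNReal.ofReal R ≤ ENNReal.ofReal (A * (2 * R)) :=
      calc (s.card : ℝ≥0∞) * ENNReal.ofReal R = ∑ _D ∈ s, ENNReal.ofReal R := by
            rw [Finset.sum_const, nsmul_eq_mul]
        _ ≤ ∑ D ∈ s, μH[1] D := Finset.sum_le_sum fun D hD => (hlen D (hs hD)).2.2
        _ = μH[1] (⋃ D ∈ s, D) := (measure_biUnion_finset (f := fun D => D) (hpd.subset hs)
            fun D hD => (hlen D (hs hD)).1).symm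
        _ ≤ μH[1] (S ∩ closedBall p (2 * R)) :=
            measure_mono (iUnion₂_subset fun D hD => (hlen D (hs hD)).2.1)
        _ ≤ _ := hgrow _ (by linarith)
    rw [← ENNReal.ofReal_natCast, ← ENNReal.ofReal_mul (Nat.cast_nonneg _),
      ENNReal.ofReal_le_ofReal_iff (by positivity), hcard, Nat.cast_succ] at h1
    nlinarith [Nat.lt_floor_add_one (2 * A)]
  set W := ⋃ D ∈ 𝒟 \ {connectedComponentIn B y}, D with hW
  have hWc : IsClosed W :=
    (hfin.subset sdiff_subset).isClosed_biUnion fun D hD => by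
      obtain ⟨z, -, rfl⟩ := hD.1
      exact isClosed_component hBc z
  refine ⟨ball p R \ W, isOpen_ball.sdiff hWc, ⟨mem_ball.2 hyR, ?_⟩, ?_⟩
  · simp only [hW, mem_iUnion, exists_prop, not_exists, not_and]
    rintro _ ⟨⟨z, -, rfl⟩, hne⟩ hyz
    exact hne (connectedComponentIn_eq hyz).symm.symm
  · rintro z ⟨⟨hzR, hzW⟩, hzS⟩
    have hz : z ∈ S ∩ closedBall p R := ⟨hzS, ball_subset_closedBall hzR⟩
    have hzc := mem_connectedComponentIn (hmem z hz)
    by_contra hne
    refine hzW (mem_iUnion₂.2 ⟨connectedComponentIn B z, ⟨mem_image_of_mem _ hz, ?_⟩, hzc⟩)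
    exact fun e => hne ((e : connectedComponentIn B z = connectedComponentIn B y) ▸ hzc)

/-- Two points of a component lie in a compact connected subset. -/
theorem exists_compact_connected (hK : IsClosed K) (hA : 0 ≤ A)
    (hgrow : ∀ w : X, ∀ t : ℝ, 0 < t → μH[1] (K ∩ closedBall w t) ≤ ENNReal.ofReal (A * t))
    (hq : q ∈ connectedComponentIn K p) :
    ∃ S' : Set X, IsCompact S' ∧ IsPreconnected S' ∧ S' ⊆ K ∧ p ∈ S' ∧ q ∈ S' := by
  have hp : p ∈ K := connectedComponentIn_nonempty_iff.1 ⟨q, hq⟩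
  set S := connectedComponentIn K p
  have hS : IsPreconnected S := isPreconnected_connectedComponentIn
  have hSc : IsClosed S := isClosed_component hK p
  set U : Set X := {y | ∃ R : ℝ, y ∈ connectedComponentIn (S ∩ closedBall p R) p}
  have hg : ∀ t : ℝ, 0 < t → μH[1] (S ∩ closedBall p t) ≤ ENNReal.ofReal (A * t) := fun t ht =>
    (measure_mono (inter_subset_inter_left _ (connectedComponentIn_subset K p))).trans
      (hgrow p t ht)
  have key : ∀ y ∈ S, ∃ V : Set X, IsOpen V ∧ y ∈ V ∧ ∀ z ∈ V ∩ S, (y ∈ U ↔ z ∈ U) := by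
    intro y hy
    set R := dist y p + 1
    obtain ⟨V, hV, hyV, hsub⟩ := exists_nhd_subset_component hS hSc
      (by positivity : 0 < R) hA hg hy (by linarith)
    refine ⟨V, hV, hyV, fun z hz => ?_⟩
    have hcz := hsub hz
    have step : ∀ a b : X, a ∈ U → a ∈ connectedComponentIn (S ∩ closedBall p (2 * R)) y →
        b ∈ connectedComponentIn (S ∩ closedBall p (2 * R)) y → b ∈ U := by
      rintro a b ⟨R', ha⟩ hay hby
      refine ⟨max R' (2 * R), ?_⟩
      have hp' := connectedComponentIn_nonempty_iff.1 ⟨a, ha⟩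
      refine ((isPreconnected_connectedComponentIn (F := S ∩ closedBall p R') (x := p)).union a ha
        hay isPreconnected_connectedComponentIn).subset_connectedComponentIn
          (Or.inl (mem_connectedComponentIn hp')) ?_ (Or.inr hby)
      rintro w (hw | hw) <;> have hw' := connectedComponentIn_subset _ _ hw <;>
        refine ⟨hw'.1, ?_⟩
      · exact closedBall_subset_closedBall (le_max_left _ _) hw'.2
      · exact closedBall_subset_closedBall (le_max_right _ _) hw'.2
    have hyy : y ∈ connectedComponentIn (S ∩ closedBall p (2 * R)) y :=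
      mem_connectedComponentIn ⟨hy, mem_closedBall.2 (by linarith [dist_nonneg (x := y) (y := p)])⟩
    exact ⟨fun h => step y z h hyy hcz, fun h => step z y h hcz hyy⟩
  choose! V hVo hVy hV using key
  have hpU : p ∈ U :=
    ⟨0, mem_connectedComponentIn ⟨mem_connectedComponentIn hp, mem_closedBall_self le_rfl⟩⟩
  have hqU : q ∈ U := by
    by_contra hne
    obtain ⟨z, hz, hz1, hz2⟩ := hS (⋃ y ∈ S ∩ U, V y) (⋃ y ∈ S \ U, V y)
      (isOpen_biUnion fun y hy => hVo y hy.1) (isOpen_biUnion fun y hy => hVo y hy.1)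
      (fun y hy => by
        by_cases h : y ∈ U
        · exact Or.inl (mem_iUnion₂.2 ⟨y, ⟨hy, h⟩, hVy y hy⟩)
        · exact Or.inr (mem_iUnion₂.2 ⟨y, ⟨hy, h⟩, hVy y hy⟩))
      ⟨p, mem_connectedComponentIn hp, mem_iUnion₂.2
        ⟨p, ⟨mem_connectedComponentIn hp, hpU⟩, hVy p (mem_connectedComponentIn hp)⟩⟩
      ⟨q, hq, mem_iUnion₂.2 ⟨q, ⟨hq, hne⟩, hVy q hq⟩⟩
    obtain ⟨a, ha, hza⟩ := mem_iUnion₂.1 hz1
    obtain ⟨b, hb, hzb⟩ := mem_iUnion₂.1 hz2
    exact hb.2 ((hV b hb.1 z ⟨hzb, hz⟩).2 ((hV a ha.1 z ⟨hza, hz⟩).1 ha.2))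
  obtain ⟨R, hR⟩ := hqU
  have hB : IsClosed (S ∩ closedBall p R) := hSc.inter isClosed_closedBall
  refine ⟨connectedComponentIn (S ∩ closedBall p R) p, ?_, isPreconnected_connectedComponentIn,
    ((connectedComponentIn_subset _ p).trans inter_subset_left).trans
      (connectedComponentIn_subset K p),
    mem_connectedComponentIn (connectedComponentIn_nonempty_iff.1 ⟨q, hR⟩), hR⟩
  exact ((isCompact_closedBall p R).inter_left hSc).of_isClosed_subset (isClosed_component hB p)
    (connectedComponentIn_subset _ p)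

omit [MeasurableSpace X] [BorelSpace X] [ProperSpace X] in
/-- A chain of `δ`-separated points in a compact connected set, from `p` to near `q`. -/
theorem exists_chain (hS : IsPreconnected S) (hSk : IsCompact S) (hp : p ∈ S) (hq : q ∈ S)
    {δ : ℝ} (hδ : 0 < δ) :
    ∃ (m : ℕ) (x : ℕ → X), x 0 = p ∧ (∀ i, x i ∈ S) ∧ (∀ i, dist (x i) (x (i + 1)) ≤ 2 * δ) ∧
      dist (x m) q ≤ δ ∧ (∀ i, m ≤ i → x i = x m) ∧
      ∀ i ≤ m, ∀ j ≤ m, i ≠ j → δ ≤ dist (x i) (x j) := by
  classical
  obtain ⟨T, -, hTf, hT⟩ := finite_cover_balls_of_compact hSk (half_pos hδ)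
  set P : Set ℕ := {n | ∃ F : Finset X, ↑F ⊆ S ∧ p ∈ F ∧
    (∀ a ∈ F, ∀ b ∈ F, a ≠ b → δ ≤ dist a b) ∧ F.card = n}
  have hne : P.Nonempty := ⟨1, {p}, by simpa using hp, by simp, by simp, by simp⟩
  have hbdd : BddAbove P := by
    refine ⟨hTf.toFinset.card, ?_⟩
    rintro n ⟨F, hF, -, hsep, rfl⟩
    choose! c hc using fun z (hz : z ∈ F) => mem_iUnion₂.1 (hT (hF hz))
    refine Finset.card_le_card_of_injOn c (fun z hz => hTf.mem_toFinset.2 (hc z hz).1) ?_
    intro a ha b hb e
    by_contra hab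
    have h1 := mem_ball.1 (hc a ha).2
    have h2 := mem_ball.1 (hc b hb).2
    rw [← e] at h2
    linarith [hsep a ha b hb hab, dist_triangle_right a b (c a)]
  obtain ⟨F, hF, hpF, hsep, hcard⟩ := Nat.sSup_mem hne hbdd
  have hnet : ∀ z ∈ S, ∃ a ∈ F, dist z a < δ := by
    intro z hz
    by_contra! hc
    have hzF : z ∉ F := fun h => by linarith [hc z h, dist_self z]
    have : (insert z F).card ∈ P := by
      refine ⟨insert z F, ?_, Finset.mem_insert_of_mem hpF, ?_, rfl⟩
      · rw [Finset.coe_insert]; exact insert_subset hz hF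
      · intro a ha b hb hab
        rw [Finset.mem_insert] at ha hb
        rcases ha with rfl | ha <;> rcases hb with rfl | hb
        · exact absurd rfl hab
        · exact hc b hb
        · rw [dist_comm]; exact hc a ha
        · exact hsep a ha b hb hab
    have := le_csSup hbdd this
    rw [Finset.card_insert_of_notMem hzF, hcard] at this
    omega
  set G : SimpleGraph F := SimpleGraph.fromRel fun a b => dist (a : X) b < 2 * δ
  have hreach : ∀ b : F, G.Reachable ⟨p, hpF⟩ b := by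
    intro b
    by_contra hb
    set U := ⋃ a ∈ {a : F | G.Reachable ⟨p, hpF⟩ a}, ball (a : X) δ
    set W := ⋃ a ∈ {a : F | ¬G.Reachable ⟨p, hpF⟩ a}, ball (a : X) δ
    obtain ⟨z, hz, hzU, hzW⟩ := hS U W (isOpen_biUnion fun _ _ => isOpen_ball)
      (isOpen_biUnion fun _ _ => isOpen_ball)
      (fun z hz => by
        obtain ⟨a, ha, hza⟩ := hnet z hz
        by_cases h : G.Reachable ⟨p, hpF⟩ ⟨a, ha⟩
        · exact Or.inl (mem_iUnion₂.2 ⟨⟨a, ha⟩, h, hza⟩)
        · exact Or.inr (mem_iUnion₂.2 ⟨⟨a, ha⟩, h, hza⟩))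
      ⟨p, hp, mem_iUnion₂.2 ⟨⟨p, hpF⟩, SimpleGraph.Reachable.refl _, mem_ball_self hδ⟩⟩
      ⟨(b : X), hF b.2, mem_iUnion₂.2 ⟨b, hb, mem_ball_self hδ⟩⟩
    obtain ⟨a, ha, hza⟩ := mem_iUnion₂.1 hzU
    obtain ⟨c, hc, hzc⟩ := mem_iUnion₂.1 hzW
    refine hc (SimpleGraph.Reachable.trans ha (SimpleGraph.Adj.reachable ?_))
    refine (SimpleGraph.fromRel_adj _ _ _).2 ⟨fun e => hc (e ▸ ha), Or.inl ?_⟩
    linarith [dist_triangle_left (a : X) c z, mem_ball.1 hza, mem_ball.1 hzc]
  obtain ⟨b, hb, hqb⟩ := hnet q hq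
  obtain ⟨w, hw⟩ := (hreach ⟨b, hb⟩).exists_isPath
  refine ⟨w.length, fun i => (w.getVert i : X), by simp, fun i => hF (w.getVert i).2, fun i => ?_,
    ?_, fun i hi => ?_, fun i hi j hj hij => ?_⟩
  · rcases lt_or_ge i w.length with hi | hi
    · obtain ⟨-, h | h⟩ := (SimpleGraph.fromRel_adj _ _ _).1 (w.adj_getVert_succ hi)
      · exact h.le
      · rw [dist_comm]; exact h.le
    · dsimp only
      rw [w.getVert_of_length_le hi, w.getVert_of_length_le (by omega), dist_self]
      positivity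
  · dsimp only
    rw [w.getVert_length, dist_comm]; exact hqb.le
  · show (w.getVert i : X) = _
    dsimp only
    rw [w.getVert_of_length_le hi, w.getVert_length]
  · refine hsep _ (w.getVert i).2 _ (w.getVert j).2 fun e => hij ?_
    exact hw.getVert_injOn hi hj (Subtype.ext e)

/-- Two points of one component are joined by a Lipschitz path spending time `≤ C t` in balls. -/
theorem exists_short_path (hK : IsClosed K) (hA : 0 ≤ A)
    (hgrow : ∀ w : X, ∀ t : ℝ, 0 < t → μH[1] (K ∩ closedBall w t) ≤ ENNReal.ofReal (A * t))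
    (hq : q ∈ connectedComponentIn K p) (hpq : p ≠ q) :
    ∃ (M : ℝ≥0) (C : ℝ) (γ : ℝ → X), 0 ≤ C ∧ LipschitzWith M γ ∧ γ 0 = p ∧ γ 1 = q ∧
      (∀ s, γ s ∈ K) ∧ ∀ w : X, ∀ t : ℝ, 0 < t →
        volume (Icc (0 : ℝ) 1 ∩ γ ⁻¹' ball w t) ≤ ENNReal.ofReal (C * t) := by
  classical
  obtain ⟨S, hSk, hS, hSK, hp, hq'⟩ := exists_compact_connected hK hA hgrow hq
  set d := dist p q
  have hd : 0 < d := dist_pos.2 hpq
  obtain ⟨R₀, hR₀⟩ := hSk.isBounded.subset_closedBall p
  have hR₀0 : 0 ≤ R₀ := dist_nonneg.trans (mem_closedBall.1 (hR₀ hp))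
  set δ : ℕ → ℝ := fun k => min (d / 2) 1 / (k + 1)
  have hδ0 : ∀ k, 0 < δ k := fun k => by
    show 0 < min (d / 2) 1 / ((k : ℝ) + 1)
    positivity
  have hδle : ∀ k, δ k ≤ min (d / 2) 1 := fun k =>
    div_le_self (by positivity) (by linarith [(Nat.cast_nonneg k : (0 : ℝ) ≤ k)])
  have hδlim : Tendsto δ atTop (𝓝 0) := by
    simpa [δ, div_eq_mul_inv] using
      (tendsto_one_div_add_atTop_nhds_zero_nat (𝕜 := ℝ)).const_mul (min (d / 2) 1)
  choose m x hx0 hxS hxs hxq hxm hsep using fun k => exists_chain hS hSk hp hq' (hδ0 k)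
  -- length count
  have hcount : ∀ k, ∀ w : X, ∀ t : ℝ, 0 < t →
      ((Finset.range (m k + 1)).filter fun i => x k i ∈ ball w t).card * δ k
        ≤ A * (3 * t + δ k) := by
    intro k w t ht
    set F := (Finset.range (m k + 1)).filter fun i => x k i ∈ ball w t
    have hball : ∀ i, ENNReal.ofReal (δ k / 3) ≤ μH[1] (S ∩ closedBall (x k i) (δ k / 3)) := by
      intro i
      obtain ⟨z, hz, hzd⟩ : ∃ z ∈ S, δ k / 3 ≤ dist z (x k i) := by
        by_contra! hc
        linarith [hc p hp, hc q hq', dist_triangle_right p q (x k i), hδle k,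
          min_le_left (d / 2) 1, hδ0 k]
      simpa using length_le_of_isPreconnected hS (hxS k i) hz hzd
    have hdisj : (F : Set ℕ).PairwiseDisjoint fun i => S ∩ closedBall (x k i) (δ k / 3) := by
      intro i hi j hj hij
      refine disjoint_left.2 fun z hzi hzj => ?_
      have hi' := Finset.mem_range.1 (Finset.mem_filter.1 hi).1
      have hj' := Finset.mem_range.1 (Finset.mem_filter.1 hj).1
      linarith [hsep k i (by omega) j (by omega) hij, dist_triangle_left (x k i) (x k j) z,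
        mem_closedBall.1 hzi.2, mem_closedBall.1 hzj.2, hδ0 k]
    have h1 : (F.card : ℝ≥0∞) * ENNReal.ofReal (δ k / 3)
        ≤ ENNReal.ofReal (A * (t + δ k / 3)) :=
      calc (F.card : ℝ≥0∞) * ENNReal.ofReal (δ k / 3)
          = ∑ _i ∈ F, ENNReal.ofReal (δ k / 3) := by rw [Finset.sum_const, nsmul_eq_mul]
        _ ≤ ∑ i ∈ F, μH[1] (S ∩ closedBall (x k i) (δ k / 3)) :=
            Finset.sum_le_sum fun i _ => hball i
        _ = μH[1] (⋃ i ∈ F, S ∩ closedBall (x k i) (δ k / 3)) :=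
            (measure_biUnion_finset hdisj fun i _ =>
              (hSk.isClosed.inter isClosed_closedBall).measurableSet).symm
        _ ≤ μH[1] (K ∩ closedBall w (t + δ k / 3)) := by
            refine measure_mono (iUnion₂_subset fun i hi z hz => ⟨hSK hz.1, ?_⟩)
            have := mem_ball.1 (Finset.mem_filter.1 hi).2
            exact mem_closedBall.2 (by linarith [dist_triangle z (x k i) w, mem_closedBall.1 hz.2])
        _ ≤ _ := hgrow w _ (by linarith [hδ0 k])
    rw [← ENNReal.ofReal_natCast, ← ENNReal.ofReal_mul (Nat.cast_nonneg _),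
      ENNReal.ofReal_le_ofReal_iff (by have := hδ0 k; positivity)] at h1
    linarith
  set M₀ := 3 * A * (R₀ + 2)
  have hM₀ : 0 ≤ M₀ := by positivity
  have hmδ : ∀ k, (m k : ℝ) * δ k ≤ M₀ := by
    intro k
    have h := hcount k p (R₀ + 1) (by linarith)
    rw [Finset.filter_true_of_mem fun i _ => mem_ball.2
      (by linarith [mem_closedBall.1 (hR₀ (hxS k i))]), Finset.card_range, Nat.cast_succ] at h
    nlinarith [hδ0 k, hδle k, min_le_right (d / 2) 1]
  have hlong : ∀ k i, dist (x k 0) (x k i) ≤ 2 * δ k * i := by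
    intro k i
    induction i with
    | zero => simp
    | succ i ih =>
      push_cast
      linarith [dist_triangle (x k 0) (x k i) (x k (i + 1)), hxs k i]
  have hmpos : ∀ k, d / 4 ≤ (m k : ℝ) * δ k := fun k => by
    have := hlong k (m k)
    rw [hx0] at this
    linarith [dist_triangle p (x k (m k)) q, hxq k, hδle k, min_le_left (d / 2) 1]
  -- step paths
  set f : ℕ → ℝ → X := fun k s => x k ⌊s * m k⌋₊
  have hstep : ∀ k i n, dist (x k i) (x k (i + n)) ≤ 2 * δ k * n := by
    intro k i n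
    induction n with
    | zero => simp
    | succ n ih =>
      push_cast
      rw [← Nat.add_assoc]
      linarith [dist_triangle (x k i) (x k (i + n)) (x k (i + n + 1)), hxs k (i + n)]
  have hflip : ∀ k s s', dist (f k s) (f k s') ≤ 2 * M₀ * |s - s'| + 2 * δ k := by
    intro k
    suffices ∀ s s', s ≤ s' → dist (f k s) (f k s') ≤ 2 * M₀ * (s' - s) + 2 * δ k by
      intro s s'
      rcases le_total s s' with h | h
      · rw [abs_sub_comm, abs_of_nonneg (sub_nonneg.2 h)]; exact this s s' h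
      · rw [dist_comm, abs_of_nonneg (sub_nonneg.2 h)]; exact this s' s h
    intro s s' h
    have hm : (0 : ℝ) ≤ m k := Nat.cast_nonneg _
    have hle : ⌊s * m k⌋₊ ≤ ⌊s' * m k⌋₊ := Nat.floor_le_floor (by nlinarith)
    obtain ⟨n, hn⟩ := Nat.exists_eq_add_of_le hle
    have hn' : (n : ℝ) ≤ (s' - s) * m k + 1 := by
      have h2 := Nat.lt_floor_add_one (s * m k)
      have h4 : (⌊s' * m k⌋₊ : ℝ) = ⌊s * m k⌋₊ + n := by rw [hn]; push_cast; rfl
      rcases le_total 0 (s' * m k) with h5 | h5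
      · nlinarith [Nat.floor_le h5]
      · rw [Nat.floor_of_nonpos h5] at h4
        have := (Nat.cast_nonneg ⌊s * m k⌋₊ : (0 : ℝ) ≤ _)
        push_cast at h4
        nlinarith
    show dist (x k _) (x k _) ≤ _
    rw [hn]
    refine (hstep k _ n).trans ?_
    nlinarith [hmδ k, hδ0 k, mul_le_mul_of_nonneg_left (hmδ k) (sub_nonneg.2 h)]
  -- limit
  set 𝒰 := Filter.hyperfilter ℕ
  have h𝒰 : (𝒰 : Filter ℕ) ≤ atTop := Nat.cofinite_eq_atTop ▸ hyperfilter_le_cofinite
  have hlim : ∀ s, ∃ y ∈ S, Tendsto (fun k => f k s) 𝒰 (𝓝 y) := fun s =>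
    hSk.ultrafilter_le_nhds (Ultrafilter.map (fun k => f k s) 𝒰)
      (le_principal_iff.2 (Filter.mem_map.2 (Filter.Eventually.of_forall fun k => hxS k _)))
  choose γ hγS hγ using hlim
  have hδ𝒰 : Tendsto δ 𝒰 (𝓝 0) := hδlim.mono_left h𝒰
  have hγlip : ∀ s s', dist (γ s) (γ s') ≤ 2 * M₀ * |s - s'| := fun s s' => by
    refine le_of_tendsto_of_tendsto' ((hγ s).dist (hγ s')) ?_ fun k => hflip k s s'
    simpa using (hδ𝒰.const_mul 2).const_add (2 * M₀ * |s - s'|)
  refine ⟨(2 * M₀).toNNReal, 12 * A / d, γ, by positivity,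
    LipschitzWith.of_dist_le_mul fun s s' => ?_, ?_, ?_, fun s => hSK (hγS s), ?_⟩
  · rw [Real.coe_toNNReal _ (by positivity), Real.dist_eq]; exact hγlip s s'
  · refine tendsto_nhds_unique (hγ 0) ?_
    simp only [f, zero_mul, Nat.floor_zero, hx0]
    exact tendsto_const_nhds
  · refine tendsto_nhds_unique (hγ 1) (tendsto_iff_dist_tendsto_zero.2 ?_)
    refine squeeze_zero (fun _ => dist_nonneg) (fun k => ?_) hδ𝒰
    simpa [f] using hxq k
  intro w t ht
  set T := Icc (0 : ℝ) 1 ∩ γ ⁻¹' ball w t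
  suffices ∀ ε, 0 < ε → volume T ≤ ENNReal.ofReal (4 * A / d * (3 * (t + ε) + ε)) by
    refine ge_of_tendsto (x := 𝓝[>] (0 : ℝ)) ?_ (eventually_nhdsWithin_of_forall fun ε hε => this ε hε)
    have hc : Continuous fun ε : ℝ => ENNReal.ofReal (4 * A / d * (3 * (t + ε) + ε)) :=
      ENNReal.continuous_ofReal.comp (by fun_prop)
    have he : 12 * A / d * t = 4 * A / d * (3 * (t + 0) + 0) := by ring
    rw [he]
    exact (hc.tendsto 0).mono_left nhdsWithin_le_nhds
  intro ε hε
  obtain ⟨N, hN⟩ := exists_nat_gt (4 * M₀ / (ε / 2))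
  have hNpos : (0 : ℝ) < N := lt_of_le_of_lt (by positivity) hN
  have hev : ∀ᶠ k in (𝒰 : Filter ℕ), δ k < ε / 8 ∧
      ∀ j ∈ Finset.range (N + 1), dist (f k (j / N)) (γ (j / N)) < ε / 4 :=
    (hδ𝒰.eventually (Iio_mem_nhds (by linarith))).and <| (Finset.eventually_all _).2 fun j _ =>
      (tendsto_iff_dist_tendsto_zero.1 (hγ _)).eventually (Iio_mem_nhds (by linarith))
  obtain ⟨k, hk, hgrid⟩ := hev.exists
  have hclose : ∀ s ∈ Icc (0 : ℝ) 1, dist (f k s) (γ s) ≤ ε := by
    intro s hs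
    set j := ⌊s * N⌋₊
    have h0 : 0 ≤ s * N := mul_nonneg hs.1 hNpos.le
    have hj : j ∈ Finset.range (N + 1) := Finset.mem_range.2
      (Nat.lt_succ_of_le (Nat.floor_le_of_le (by nlinarith [hs.2])))
    have hs1 : |s - j / N| ≤ 1 / N := by
      have h1 := Nat.floor_le h0
      have h2 := Nat.lt_floor_add_one (s * N)
      rw [abs_of_nonneg (sub_nonneg.2 ((div_le_iff₀ hNpos).2 h1)), sub_le_iff_le_add, ← add_div,
        le_div_iff₀ hNpos]
      linarith
    have hM : 4 * M₀ * (1 / N) ≤ ε / 2 := by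
      rw [mul_one_div, div_le_iff₀ hNpos]
      have := (div_lt_iff₀ (by linarith)).1 hN
      nlinarith
    have := hflip k s (j / N)
    have := hγlip (j / N : ℝ) s
    rw [abs_sub_comm] at this
    nlinarith [dist_triangle4 (f k s) (f k (j / N)) (γ (j / N)) (γ s), hgrid j hj,
      mul_le_mul_of_nonneg_left hs1 hM₀, dist_comm (f k (j / N)) (γ (j / N))]
  set F := (Finset.range (m k + 1)).filter fun i => x k i ∈ ball w (t + ε)
  have hm : (0 : ℝ) < m k := by
    by_contra! h
    nlinarith [hmpos k, hδ0 k]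
  have hsub : T ⊆ ⋃ i ∈ F, Ico ((i : ℝ) / m k) ((i + 1) / m k) := by
    rintro s ⟨hs, hsw⟩
    have h0 : 0 ≤ s * m k := mul_nonneg hs.1 hm.le
    refine mem_iUnion₂.2 ⟨⌊s * m k⌋₊, Finset.mem_filter.2 ⟨Finset.mem_range.2
      (Nat.lt_succ_of_le (Nat.floor_le_of_le (by nlinarith [hs.2]))), ?_⟩, ?_, ?_⟩
    · exact mem_ball.2 (by linarith [dist_triangle (f k s) (γ s) w, hclose s hs, mem_ball.1 hsw])
    · rw [div_le_iff₀ hm]; exact Nat.floor_le h0
    · rw [lt_div_iff₀ hm]; exact Nat.lt_floor_add_one _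
  calc volume T ≤ ∑ i ∈ F, volume (Ico ((i : ℝ) / m k) ((i + 1) / m k)) :=
        (measure_mono hsub).trans (measure_biUnion_finset_le _ _)
    _ = F.card * ENNReal.ofReal (1 / m k) := by
        simp [Real.volume_Ico, ← sub_div]
    _ = ENNReal.ofReal (F.card / m k) := by
        rw [← ENNReal.ofReal_natCast, ← ENNReal.ofReal_mul (Nat.cast_nonneg _), mul_one_div]
    _ ≤ _ := by
        refine ENNReal.ofReal_le_ofReal ?_
        rw [div_le_iff₀ hm]
        refine le_of_mul_le_mul_right ?_ (hδ0 k)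
        calc (F.card : ℝ) * δ k ≤ A * (3 * (t + ε) + δ k) := hcount k w _ (by linarith)
          _ ≤ A * (3 * (t + ε) + ε) := mul_le_mul_of_nonneg_left (by linarith) hA
          _ = 4 * A / d * (3 * (t + ε) + ε) * (d / 4) := by field_simp
          _ ≤ 4 * A / d * (3 * (t + ε) + ε) * (m k * δ k) :=
              mul_le_mul_of_nonneg_left (hmpos k) (by positivity)
          _ = _ := by ring

end Vale.Agent.P128.Topo
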